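import Vale.Agent.P068.Edmonds

/-!
# Intersection with a finite maximal common independent set

Compactness turns the finite min-max formula into a partition of an arbitrary ground set, and a
duality argument transports intersection from the dual pair.
-/

namespace Vale.Agent.P068

open Set
open scoped Matroid

variable {α : Type*} {M N : Matroid α}

/-- The pair satisfies intersection: a common independent set splits into two parts whose
closures, in the respective matroids, cover the ground set. -/
def SatisfiesIntersection (M N : Matroid α) : Prop :=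
  ∃ J₁ J₂ : Set α, Disjoint J₁ J₂ ∧ M.Indep (J₁ ∪ J₂) ∧ N.Indep (J₁ ∪ J₂) ∧
    M.closure J₁ ∪ N.closure J₂ = M.E

/-- There is a finite set that is maximal among the common independent sets. -/
def HasFiniteMaximalCommon (M N : Matroid α) : Prop :=
  ∃ I : Set α, I.Finite ∧ Maximal (fun J => M.Indep J ∧ N.Indep J) I

/-- The rank of a finite set, as a natural number. -/
noncomputable def frk (M : Matroid α) (S : Finset α) : ℕ := (M.eRk S).toNat

lemma eRk_finset (M : Matroid α) (S : Finset α) : M.eRk S = (frk M S : ℕ∞) :=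
  (ENat.natCast_toNat (ne_top_of_le_ne_top (by simp) (M.eRk_le_encard S))).symm

lemma isRank_frk [DecidableEq α] (M : Matroid α) : IsRank (frk M) where
  empty := by simp [frk]
  mono S T h := by
    have := M.eRk_mono (Finset.coe_subset.mpr h)
    rw [eRk_finset, eRk_finset] at this
    exact_mod_cast this
  insert_le e S := by
    have := M.eRk_insert_le_add_one e S
    rw [← Finset.coe_insert, eRk_finset, eRk_finset] at this
    exact_mod_cast this
  submod S T := by
    have := M.eRk_inter_add_eRk_union_le S T
    rw [← Finset.coe_inter, ← Finset.coe_union, eRk_finset, eRk_finset, eRk_finset,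
      eRk_finset] at this
    exact_mod_cast this

lemma indep_of_frk (M : Matroid α) {S : Finset α} (h : frk M S = S.card) : M.Indep S := by
  rw [Matroid.indep_iff_eRk_eq_encard_of_finite S.finite_toSet, eRk_finset, h,
    Set.encard_coe_eq_coe_finsetCard]

lemma frk_of_indep {S : Finset α} (h : M.Indep S) : frk M S = S.card := by
  simp [frk, h.eRk_eq_encard]

/-- A finite maximal common independent set bounds the size of all common independent sets. -/
lemma exists_bound (hE : M.E = N.E) (h : HasFiniteMaximalCommon M N) :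
    ∃ b : ℕ, ∀ J : Finset α, M.Indep J → N.Indep J → J.card ≤ b := by
  classical
  obtain ⟨I, hI, ⟨hIM, hIN⟩, hmax⟩ := h
  refine ⟨2 * hI.toFinset.card, fun J hJM hJN => ?_⟩
  have hcov : (J : Set α) ⊆ M.closure I ∪ N.closure I := fun x hx => by
    by_contra hn
    rw [mem_union, not_or] at hn
    have hxE := hJM.subset_ground hx
    have h1 := (hIM.notMem_closure_iff hxE).mp hn.1
    have h2 := (hIN.notMem_closure_iff (hE ▸ hxE)).mp hn.2
    exact h1.2 (hmax ⟨h1.1, h2.1⟩ (subset_insert x I) (mem_insert x I))
  have e : J = J.filter (fun x => x ∈ M.closure I) ∪ J.filter (fun x => x ∈ N.closure I) := by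
    ext x
    simp only [Finset.mem_union, Finset.mem_filter]
    exact ⟨fun hx => (hcov hx).elim (fun h => .inl ⟨hx, h⟩) (fun h => .inr ⟨hx, h⟩),
      fun h => h.elim And.left And.left⟩
  have key : ∀ K : Matroid α, K.Indep I → K.Indep J →
      (J.filter fun x => x ∈ K.closure I).card ≤ hI.toFinset.card := fun K hKI hKJ => by
    have hsub : K.Indep ↑(J.filter fun x => x ∈ K.closure I) :=
      hKJ.subset (Finset.coe_subset.mpr (Finset.filter_subset _ _))
    have h := hsub.encard_le_eRk_of_subset
        (X := K.closure I) (fun x hx => (Finset.mem_filter.mp hx).2)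
    rw [Matroid.eRk_closure_eq, hKI.eRk_eq_encard, Set.encard_coe_eq_coe_finsetCard,
      hI.encard_eq_coe_toFinset_card] at h
    exact_mod_cast h
  have h1 := key M hIM hJM
  have h2 := key N hIN hJN
  calc J.card = _ := congrArg Finset.card e
    _ ≤ _ := Finset.card_union_le _ _
    _ ≤ 2 * hI.toFinset.card := by omega

/-- Compactness: a partition of the ground set of total rank at most `k`. -/
lemma exists_split [DecidableEq α] {k : ℕ}
    (hk : ∀ J : Finset α, M.Indep J → N.Indep J → J.card ≤ k) :
    ∃ a : α → Bool, ∀ F : Finset α,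
      frk M (F.filter fun x => a x = true) + frk N (F.filter fun x => a x = false) ≤ k := by
  let K : Finset α → Set (α → Bool) := fun F =>
    {a | frk M (F.filter fun x => a x = true) + frk N (F.filter fun x => a x = false) ≤ k}
  have hmono : ∀ ⦃F G : Finset α⦄, F ⊆ G → K G ⊆ K F := fun F G h a ha =>
    le_trans (add_le_add ((isRank_frk M).mono (Finset.filter_subset_filter _ h))
      ((isRank_frk N).mono (Finset.filter_subset_filter _ h))) ha
  have hne : ∀ F, (K F).Nonempty := fun F => by
    obtain ⟨A, hA, h⟩ := edmonds F _ _ (isRank_frk M) (isRank_frk N) k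
      fun J _ h1 h2 => hk J (indep_of_frk M h1) (indep_of_frk N h2)
    refine ⟨fun x => decide (x ∈ A), ?_⟩
    show frk M _ + frk N _ ≤ k
    have e1 : F.filter (fun x => decide (x ∈ A) = true) = A := by
      ext x; simp only [Finset.mem_filter, decide_eq_true_eq]; exact ⟨And.right, fun h => ⟨hA h, h⟩⟩
    have e2 : F.filter (fun x => decide (x ∈ A) = false) = F \ A := by
      ext x; simp only [Finset.mem_filter, decide_eq_false_iff_not, Finset.mem_sdiff]
    rwa [e1, e2]
  have hcl : ∀ F, IsClosed (K F) := fun F => by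
    let ext : ((↑F : Set α) → Bool) → α → Bool :=
      fun b x => if h : x ∈ F then b ⟨x, h⟩ else false
    have e : K F = (fun a : α → Bool => fun x : (↑F : Set α) => a x.1) ⁻¹'
        {b | ext b ∈ K F} := by
      ext a
      simp only [mem_preimage, mem_ofPred_eq, K]
      rw [Finset.filter_congr (q := fun x => ext (fun x : (↑F : Set α) => a x.1) x = true)
          (p := fun x => a x = true) fun x hx => by simp [ext, hx],
        Finset.filter_congr (q := fun x => ext (fun x : (↑F : Set α) => a x.1) x = false)
          (p := fun x => a x = false) fun x hx => by simp [ext, hx]]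
    rw [e]
    exact (isClosed_discrete _).preimage (continuous_pi fun x => continuous_apply x.1)
  obtain ⟨a, ha⟩ := IsCompact.nonempty_iInter_of_directed_nonempty_isCompact_isClosed K
    (fun F G => ⟨F ∪ G, hmono Finset.subset_union_left, hmono Finset.subset_union_right⟩) hne
    (fun F => (hcl F).isCompact) hcl
  exact ⟨a, fun F => mem_iInter.mp ha F⟩

/-- Intersection holds when some maximal common independent set is finite. -/
theorem intersection_of_finite (hE : M.E = N.E) (h : HasFiniteMaximalCommon M N) :
    SatisfiesIntersection M N := by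
  classical
  obtain ⟨b, hb⟩ := exists_bound hE h
  let P : ℕ → Prop := fun m => ∃ J : Finset α, M.Indep J ∧ N.Indep J ∧ J.card = m
  have h0 : P 0 := ⟨∅, by simp, by simp, rfl⟩
  set k := Nat.findGreatest P b
  obtain ⟨I, hIM, hIN, hIk⟩ : P k := Nat.findGreatest_spec (Nat.zero_le b) h0
  have hk : ∀ J : Finset α, M.Indep J → N.Indep J → J.card ≤ k := fun J h1 h2 =>
    Nat.le_findGreatest (hb J h1 h2) ⟨J, h1, h2, rfl⟩
  obtain ⟨a, ha⟩ := exists_split hk
  set I₁ := I.filter fun x => a x = true
  set I₂ := I.filter fun x => a x = false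
  have hu : (I₁ : Set α) ∪ I₂ = I := by
    ext x; cases hx : a x <;> simp [I₁, I₂, hx]
  have hM1 : M.Indep I₁ := hIM.subset (hu ▸ subset_union_left)
  have hN2 : N.Indep I₂ := hIN.subset (hu ▸ subset_union_right)
  have hd : Disjoint I₁ I₂ := Finset.disjoint_filter.mpr fun x _ h h' => by simp [h] at h'
  have hc : I₁.card + I₂.card = k := by
    rw [← Finset.card_union_of_disjoint hd, ← hIk]
    exact congrArg _ (Finset.coe_injective (by simpa using hu))
  refine ⟨I₁, I₂, Finset.disjoint_coe.mpr hd, by rw [hu]; exact hIM, by rw [hu]; exact hIN,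
    subset_antisymm (union_subset (M.closure_subset_ground _) (hE ▸ N.closure_subset_ground _))
      fun x hx => ?_⟩
  by_contra hn
  rw [mem_union, not_or] at hn
  have h1 := (hM1.notMem_closure_iff hx).mp hn.1
  have h2 := (hN2.notMem_closure_iff (hE ▸ hx)).mp hn.2
  have hxI : x ∉ I := fun h => by
    rw [← Finset.mem_coe, ← hu] at h
    exact h.elim h1.2 h2.2
  have h := ha (insert x I)
  have hfM := frk_of_indep (M := M) (S := insert x I₁) (by simpa using h1.1)
  have hfN := frk_of_indep (M := N) (S := insert x I₂) (by simpa using h2.1)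
  have gM := frk_of_indep hM1
  have gN := frk_of_indep hN2
  rw [Finset.filter_insert, Finset.filter_insert] at h
  rw [Finset.card_insert_of_notMem (fun h => h1.2 h)] at hfM
  rw [Finset.card_insert_of_notMem (fun h => h2.2 h)] at hfN
  simp only [I₁, I₂] at hfM hfN gM gN hc
  cases hax : a x <;> simp only [hax, if_true, if_false, Bool.false_eq_true,
    Bool.true_eq_false] at h <;> omega

/-- From a split of the dual pair: what one of the matroids gains. -/
lemma dual_side {X Y J₁ J₂ : Set α} (hXY : M.E \ X = Y) (hX : X ⊆ M.E)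
    (hB : M✶.IsBasis J₁ X) (hJ : M✶.Indep (J₁ ∪ J₂)) (hJ₂ : J₂ ⊆ Y) :
    Y ⊆ M.closure (Y \ J₂) ∧
      ∀ Q, M.IsBasis Q Y → M.Indep ((X \ J₁) ∪ Q) := by
  have hYE : Y ⊆ M.E := hXY ▸ sdiff_subset
  have hXdY : Disjoint X Y := hXY ▸ disjoint_sdiff_right
  constructor
  · have h1 : (M✶ ／ X).Indep J₂ := by
      rw [hB.contract_indep_iff]
      exact ⟨by rwa [union_comm], hXdY.mono_right hJ₂⟩
    rw [← Matroid.dual_delete] at h1
    have hs : (M ＼ X).Spanning ((M ＼ X).E \ J₂) := by
      rw [← Matroid.coindep_iff_compl_spanning (by rw [Matroid.delete_ground, hXY]; exact hJ₂)]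
      exact h1
    have h2 := hs.closure_eq
    rw [Matroid.delete_ground, hXY, Matroid.delete_closure_eq,
      (hXdY.mono_right sdiff_subset).symm.sdiff_eq_left] at h2
    intro y hy
    rw [← h2] at hy
    exact hy.1
  · intro Q hQ
    have hYX : M.E \ Y = X := by rw [← hXY, sdiff_sdiff_cancel_left hX]
    have hs : (M✶ ＼ Y).Spanning J₁ := by
      rw [Matroid.spanning_iff_ground_subset_closure (by
        rw [Matroid.delete_ground, Matroid.dual_ground, hYX]; exact hB.subset)]
      rw [Matroid.delete_ground, Matroid.dual_ground, hYX, Matroid.delete_closure_eq,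
        (hXdY.mono_left hB.subset).sdiff_eq_left]
      exact fun x hx => ⟨hB.subset_closure hx, fun hxY => hXdY.notMem_of_mem_left hx hxY⟩
    have h1 : (M ／ Y).Indep (X \ J₁) := by
      have := hs.compl_coindep
      rwa [Matroid.coindep_def, Matroid.delete_ground, Matroid.dual_ground, hYX,
        Matroid.dual_delete, Matroid.dual_dual] at this
    exact (hQ.contract_indep_iff.mp h1).1

/-- Intersection passes from the dual pair to the pair. -/
theorem intersection_of_dual (hE : M.E = N.E) (h : SatisfiesIntersection M✶ N✶) :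
    SatisfiesIntersection M N := by
  obtain ⟨J₁, J₂, hd, hM, hN, hcov⟩ := h
  rw [Matroid.dual_ground] at hcov
  set X := M✶.closure J₁
  have hXE : X ⊆ M.E := M✶.closure_subset_ground J₁
  set Y := M.E \ X with hYdef
  have hB1 : M✶.IsBasis J₁ X := (hM.subset subset_union_left).isBasis_closure
  have hJ2Y : J₂ ⊆ Y := fun x hx => by
    refine ⟨hM.subset_ground (Or.inr hx), fun hxX => ?_⟩
    rcases (hM.subset subset_union_left).mem_closure_iff'.mp hxX with ⟨_, h⟩
    exact disjoint_left.mp hd (h (hM.subset (insert_subset (Or.inr hx) subset_union_left))) hx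
  have hYE : Y ⊆ N.E := hE ▸ sdiff_subset
  have hB2 : N✶.IsBasis J₂ Y := (hN.subset subset_union_right).isBasis_of_subset_of_subset_closure
    hJ2Y fun y hy => ((hcov.symm.subset hy.1).resolve_left hy.2)
  have hJ1X : J₁ ⊆ X := hB1.subset
  obtain ⟨sM, iM⟩ := dual_side (M := M) rfl hXE hB1 hM hJ2Y
  have hNX : N.E \ Y = X := by rw [hYdef, ← hE, sdiff_sdiff_cancel_left hXE]
  obtain ⟨sN, iN⟩ := dual_side (M := N) (X := Y) (J₁ := J₂) (J₂ := J₁) hNX hYE hB2
    (by rwa [union_comm]) hJ1X
  obtain ⟨Q, hQ⟩ := M.exists_isBasis (Y \ J₂) (sdiff_subset.trans sdiff_subset)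
  obtain ⟨P, hP⟩ := N.exists_isBasis (X \ J₁) (sdiff_subset.trans (hE ▸ hXE))
  have hQY : M.IsBasis Q Y := hQ.indep.isBasis_of_subset_of_subset_closure
    (hQ.subset.trans sdiff_subset) (sM.trans hQ.closure_eq_closure.ge)
  have hPX : N.IsBasis P X := hP.indep.isBasis_of_subset_of_subset_closure
    (hP.subset.trans sdiff_subset) (sN.trans hP.closure_eq_closure.ge)
  refine ⟨Q, P, ?_, ?_, ?_, ?_⟩
  · exact (disjoint_sdiff_left (s := X) (t := M.E)).mono hQY.subset hPX.subset
  · exact (iM Q hQY).subset (union_subset subset_union_right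
      (hP.subset.trans subset_union_left))
  · exact (iN P hPX).subset (union_subset (hQ.subset.trans subset_union_left) subset_union_right)
  · refine subset_antisymm (union_subset (M.closure_subset_ground _)
      (hE ▸ N.closure_subset_ground _)) fun x hx => ?_
    by_cases hxX : x ∈ X
    · exact Or.inr (hPX.subset_closure hxX)
    · exact Or.inl (hQY.subset_closure ⟨hx, hxX⟩)

/-- A matroid of finite rank has a finite maximal common independent set with any partner. -/
lemma hasFiniteMaximalCommon_of_rankFinite (h : M.RankFinite) :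
    HasFiniteMaximalCommon M N := by
  let P : ℕ → Prop := fun m => ∃ J : Set α, J.Finite ∧ M.Indep J ∧ N.Indep J ∧ J.ncard = m
  obtain ⟨B, hB, hBfin⟩ := h.exists_finite_isBase
  have hbd : ∀ J, M.Indep J → J.Finite ∧ J.ncard ≤ B.ncard := fun J hJ => by
    obtain ⟨B', hB', hJB⟩ := hJ.exists_isBase_superset
    have hB'f := hB.finite_of_finite hBfin hB'
    exact ⟨hB'f.subset hJB, (ncard_le_ncard hJB hB'f).trans_eq (hB'.ncard_eq_ncard_of_isBase hB)⟩
  classical
  obtain ⟨I, hIf, hIM, hIN, hIk⟩ : P (Nat.findGreatest P B.ncard) :=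
    Nat.findGreatest_spec (Nat.zero_le _) ⟨∅, finite_empty, M.empty_indep, N.empty_indep, ncard_empty α⟩
  refine ⟨I, hIf, ⟨hIM, hIN⟩, fun J hJ hIJ => ?_⟩
  obtain ⟨hJf, hJn⟩ := hbd J hJ.1
  have := Nat.le_findGreatest (P := P) hJn ⟨J, hJf, hJ.1, hJ.2, rfl⟩
  exact (eq_of_subset_of_ncard_le hIJ (by omega) hJf).ge

lemma hasFiniteMaximalCommon_symm (h : HasFiniteMaximalCommon M N) :
    HasFiniteMaximalCommon N M := by
  obtain ⟨I, hI, ⟨h1, h2⟩, hmax⟩ := h
  exact ⟨I, hI, ⟨h2, h1⟩, fun J hJ hIJ => hmax ⟨hJ.2, hJ.1⟩ hIJ⟩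

end Vale.Agent.P068
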