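import Mathlib

/-!
# Min-max formula for two rank functions on finite sets

Edmonds' formula, by induction on the ground set with deletion and contraction of one element,
carried out on rank functions so that no minors are needed.
-/

namespace Vale.Agent.P068

open Finset

variable {α : Type*} [DecidableEq α]

/-- A monotone submodular rank function with unit increments. -/
structure IsRank (f : Finset α → ℕ) : Prop where
  empty : f ∅ = 0
  mono : ∀ ⦃S T : Finset α⦄, S ⊆ T → f S ≤ f T
  insert_le : ∀ (e : α) (S : Finset α), f (insert e S) ≤ f S + 1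
  submod : ∀ S T : Finset α, f (S ∩ T) + f (S ∪ T) ≤ f S + f T

lemma IsRank.contract {f : Finset α → ℕ} (hf : IsRank f) {e : α} (he : f {e} = 1) :
    IsRank fun S => f (insert e S) - 1 := by
  have h1 : ∀ S, 1 ≤ f (insert e S) := fun S => he ▸ hf.mono (by simp)
  refine ⟨by simp [he], fun S T h => Nat.sub_le_sub_right (hf.mono (insert_subset_insert e h)) 1,
    fun x S => ?_, fun S T => ?_⟩
  · have := hf.insert_le x (insert e S)
    rw [Finset.insert_comm] at this
    have := h1 S
    show f (insert e (insert x S)) - 1 ≤ f (insert e S) - 1 + 1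
    omega
  · have := hf.submod (insert e S) (insert e T)
    rw [← insert_inter_distrib, ← insert_union_distrib] at this
    have := h1 S; have := h1 T; have := h1 (S ∩ T); have := h1 (S ∪ T)
    show f (insert e (S ∩ T)) - 1 + (f (insert e (S ∪ T)) - 1) ≤
      f (insert e S) - 1 + (f (insert e T) - 1)
    omega

/-- Edmonds' min-max formula, in the nontrivial direction. -/
theorem edmonds (F : Finset α) : ∀ (f g : Finset α → ℕ), IsRank f → IsRank g → ∀ k : ℕ,
    (∀ J ⊆ F, f J = J.card → g J = J.card → J.card ≤ k) →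
      ∃ A ⊆ F, f A + g (F \ A) ≤ k := by
  induction F using Finset.induction_on with
  | empty => exact fun f g hf hg k _ => ⟨∅, Subset.refl _, by simp [hf.empty, hg.empty]⟩
  | @insert e F he ih =>
    intro f g hf hg k hk
    obtain ⟨A₁, hA₁, h₁⟩ := ih f g hf hg k fun J hJ => hk J (hJ.trans (subset_insert e F))
    have hone : ∀ h : Finset α → ℕ, IsRank h → h {e} ≤ 1 := fun h hh => by
      have := hh.insert_le e ∅
      rw [hh.empty] at this; simpa using this
    rcases Nat.eq_zero_or_pos (f {e}) with hf0 | hf1
    · refine ⟨insert e A₁, insert_subset_insert e hA₁, ?_⟩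
      have e1 : insert e F \ insert e A₁ = F \ A₁ := by
        ext x; simp only [mem_sdiff, mem_insert]; constructor
        · rintro ⟨h | h, hn⟩
          · exact absurd (Or.inl h) hn
          · exact ⟨h, fun hx => hn (Or.inr hx)⟩
        · rintro ⟨h, hn⟩
          exact ⟨Or.inr h, fun hx => hx.elim (fun hx => he (hx ▸ h)) hn⟩
      have := hf.submod {e} A₁
      rw [singleton_union] at this
      rw [e1]; omega
    rcases Nat.eq_zero_or_pos (g {e}) with hg0 | hg1
    · refine ⟨A₁, hA₁.trans (subset_insert e F), ?_⟩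
      have e1 : insert e F \ A₁ = insert e (F \ A₁) :=
        insert_sdiff_of_notMem _ fun h => he (hA₁ h)
      have := hg.submod {e} (F \ A₁)
      rw [singleton_union] at this
      rw [e1]; omega
    have hfe : f {e} = 1 := le_antisymm (hone f hf) hf1
    have hge : g {e} = 1 := le_antisymm (hone g hg) hg1
    have hk1 : 1 ≤ k := by simpa [hfe, hge] using hk {e} (by simp)
    obtain ⟨A₂, hA₂, h₂⟩ := ih _ _ (hf.contract hfe) (hg.contract hge) (k - 1) fun J hJ hJf hJg => by
      have heJ : e ∉ J := fun h => he (hJ h)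
      have h1 : 1 ≤ f (insert e J) := hfe ▸ hf.mono (by simp)
      have h2 : 1 ≤ g (insert e J) := hge ▸ hg.mono (by simp)
      have h := hk (insert e J) (insert_subset_insert e hJ)
        (by rw [card_insert_of_notMem heJ]; omega) (by rw [card_insert_of_notMem heJ]; omega)
      rw [card_insert_of_notMem heJ] at h
      omega
    have h1 : 1 ≤ f (insert e A₂) := hfe ▸ hf.mono (by simp)
    have h2 : 1 ≤ g (insert e (F \ A₂)) := hge ▸ hg.mono (by simp)
    have eA : A₁ ∩ insert e A₂ = A₁ ∩ A₂ := inter_insert_of_notMem fun h => he (hA₁ h)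
    have eB : (F \ A₁) ∩ insert e (F \ A₂) = F \ (A₁ ∪ A₂) := by
      rw [inter_insert_of_notMem fun h => he (mem_sdiff.mp h).1]
      ext x; simp only [mem_inter, mem_sdiff, mem_union]; tauto
    have sA := hf.submod A₁ (insert e A₂)
    have sB := hg.submod (F \ A₁) (insert e (F \ A₂))
    rw [eA, union_insert] at sA
    rw [eB, union_insert] at sB
    have c1 : insert e F \ (A₁ ∩ A₂) = insert e ((F \ A₁) ∪ (F \ A₂)) := by
      rw [insert_sdiff_of_notMem _ fun h => he (hA₁ (mem_inter.mp h).1)]
      congr 1
      ext x; simp only [mem_inter, mem_sdiff, mem_union]; tauto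
    have c2 : insert e F \ insert e (A₁ ∪ A₂) = F \ (A₁ ∪ A₂) := by
      ext x; simp only [mem_sdiff, mem_insert, mem_union]
      constructor
      · rintro ⟨h | h, hn⟩
        · exact absurd (Or.inl h) hn
        · exact ⟨h, fun hx => hn (Or.inr hx)⟩
      · rintro ⟨h, hn⟩
        exact ⟨Or.inr h, fun hx => hx.elim (fun hx => he (hx ▸ h)) hn⟩
    by_cases hc : f (A₁ ∩ A₂) + g (insert e ((F \ A₁) ∪ (F \ A₂))) ≤ k
    · exact ⟨A₁ ∩ A₂, (inter_subset_left.trans hA₁).trans (subset_insert e F), by rw [c1]; exact hc⟩
    · refine ⟨insert e (A₁ ∪ A₂), insert_subset_insert e (union_subset hA₁ hA₂), ?_⟩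
      rw [c2]
      omega

end Vale.Agent.P068
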